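import Vale.Agent.P284.H894.MkCoc
import Vale.Agent.P097.H407.Hol

/-! # P284 (helper633), A6: from a section over the pieces to a section over `X`. -/

open scoped Manifold ContDiff Topology ComplexConjugate ComplexOrder
open Filter Set Metric

noncomputable section

namespace Vale.Agent.P284.H633

open Vale.Agent.P272.K Vale.Agent.P284.H248 Vale.Agent.P284.H894

variable {n : ℕ} {X : Type} [TopologicalSpace X] [ChartedSpace (Cm n) X] {L : LineBundle n X}

/-- the section in the chart `e` and the frame `i`, computed with the piece `a` -/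
def Fa (P : Pcs L) (θ : P.I → Cm n → Cm n → ℂ) (w : ℕ) (a : P.I) (i : L.ι) (e : Chart n X)
    (z v : Cm n) : ℂ :=
  L.g i (P.f a) (e.symm z) ^ w *
    θ a (P.e a (e.symm z)) (fderiv ℂ (fun y => P.e a (e.symm y)) z v)

/-- the point `x` is in the middle ball of the piece `a` -/
def InV (P : Pcs L) (a : P.I) (x : X) : Prop :=
  x ∈ (P.e a).source ∧ P.e a x ∈ ball (P.c a) (3 * P.r a)

lemma InV.at {P : Pcs L} {a : P.I} {x : X} (h : InV P a x) : At (P.e a) x := ⟨P.mem a, h.1⟩

lemma InV.ball4 {P : Pcs L} {a : P.I} {x : X} (h : InV P a x) :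
    P.e a x ∈ ball (P.c a) (4 * P.r a) :=
  ball_subset_ball (by linarith [P.r_pos a]) h.2

lemma InV.mem_U {P : Pcs L} {a : P.I} {x : X} (h : InV P a x) : x ∈ L.U (P.f a) := by
  have := P.frame' h.ball4
  rwa [h.at.left_inv] at this

lemma InV.mem_O {P : Pcs L} {a b : P.I} {x : X} (h : InV P a x) (h' : InV P b x) :
    P.e a x ∈ P.O a b := by
  refine ⟨h.ball4, ?_, ?_⟩
  · rw [h.at.left_inv]; exact h'.1
  · show P.e b ((P.e a).symm (P.e a x)) ∈ _
    rw [h.at.left_inv]; exact h'.ball4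

lemma InV.T {P : Pcs L} {a b : P.I} {x : X} (h : InV P a x) : P.T a b (P.e a x) = P.e b x := by
  show P.e b ((P.e a).symm (P.e a x)) = _
  rw [h.at.left_inv]

lemma isOpen_InV (P : Pcs L) (a : P.I) : IsOpen {x | InV P a x} :=
  (P.e a).isOpen_inter_preimage isOpen_ball

variable [IsManifold 𝓘(ℂ, Cm n) ω X]

/-- chain rule for the changes of charts -/
lemma fderiv_chain {e e' e'' : Chart n X} {x : X} (h : At e x) (h' : At e' x) (h'' : At e'' x)
    (v : Cm n) :
    fderiv ℂ (fun z => e'' (e'.symm z)) (e' x) (fderiv ℂ (fun z => e' (e.symm z)) (e x) v) =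
      fderiv ℂ (fun z => e'' (e.symm z)) (e x) v := by
  have h2 : e' (e.symm (e x)) = e' x := by rw [h.left_inv]
  have hd1 := transition_differentiableAt h h'
  have hd2 := transition_differentiableAt h' h''
  have h3 : HasFDerivAt (fun z => e'' (e'.symm (e' (e.symm z))))
      ((fderiv ℂ (fun z => e'' (e'.symm z)) (e' x)).comp
        (fderiv ℂ (fun z => e' (e.symm z)) (e x))) (e x) := by
    have h4 : HasFDerivAt (fun z => e'' (e'.symm z)) (fderiv ℂ (fun z => e'' (e'.symm z)) (e' x))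
        ((fun z => e' (e.symm z)) (e x)) := by
      show HasFDerivAt _ _ (e' (e.symm (e x)))
      rw [h2]; exact hd2.hasFDerivAt
    exact h4.comp (e x) hd1.hasFDerivAt
  have h5 : (fun z => e'' (e.symm z)) =ᶠ[𝓝 (e x)] fun z => e'' (e'.symm (e' (e.symm z))) := by
    filter_upwards [h.nhds_at h'] with z hz
    rw [hz.2.2.left_inv]
  rw [(h3.congr_of_eventuallyEq h5).fderiv]
  rfl

omit [IsManifold 𝓘(ℂ, Cm n) ω X] in
/-- the derivative of the identity -/
lemma fderiv_self {e : Chart n X} {x : X} (h : At e x) (v : Cm n) :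
    fderiv ℂ (fun z => e (e.symm z)) (e x) v = v := by
  have h5 : (fun z => e (e.symm z)) =ᶠ[𝓝 (e x)] fun z => z := by
    filter_upwards [h.nhds_target] with z hz using e.right_inv hz
  rw [h5.fderiv_eq, fderiv_fun_id]
  rfl

variable [T2Space X]

section
variable {P : Pcs L} {Γ : Type} [Group Γ] {K : KD P Γ} {d w : ℕ} (s : XF (mkCoc P K) d w)

/-- independence of the piece -/
lemma Fa_eq {a b : P.I} {i : L.ι} {e : Chart n X} {x : X} (h : At e x) (hi : x ∈ L.U i)
    (ha : InV P a x) (hb : InV P b x) (v : Cm n) :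
    Fa P s.θ w a i e (e x) v = Fa P s.θ w b i e (e x) v := by
  unfold Fa
  rw [h.left_inv]
  have h1 := s.change a b (P.e a x) (ha.mem_O hb) ha.2 (by
    show P.T a b (P.e a x) ∈ _
    rw [ha.T]; exact hb.2) (fderiv ℂ (fun y => P.e a (e.symm y)) (e x) v)
  rw [h1]
  have h2 : (mkCoc P K).T a b (P.e a x) = P.e b x := ha.T
  have h3 : fderiv ℂ ((mkCoc P K).T a b) (P.e a x)
      (fderiv ℂ (fun y => P.e a (e.symm y)) (e x) v) =
      fderiv ℂ (fun y => P.e b (e.symm y)) (e x) v := fderiv_chain h ha.at hb.at v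
  have h4 : (mkCoc P K).g a b (P.e a x) = L.g (P.f a) (P.f b) x := by
    show L.g (P.f a) (P.f b) ((P.e a).symm (P.e a x)) = _
    rw [ha.at.left_inv]
  rw [h2, h3, h4, ← mul_assoc, ← mul_pow, L.cocycle _ _ _ x hi ha.mem_U hb.mem_U]

/-- the piece of a point -/
def pc (P : Pcs L) (x : X) : P.I := (P.cover x).choose

omit [IsManifold 𝓘(ℂ, Cm n) ω X] [T2Space X] in
lemma pc_mem (P : Pcs L) (x : X) : InV P (pc P x) x := by
  have h : x ∈ (P.e (pc P x)).source ∧ P.e (pc P x) x ∈ ball (P.c (pc P x)) (P.r (pc P x)) :=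
    (P.cover x).choose_spec
  exact ⟨h.1, ball_subset_ball (by linarith [P.r_pos (pc P x)]) h.2⟩

/-- the value of the section -/
def Fs (i : L.ι) (e : Chart n X) (z v : Cm n) : ℂ := Fa P s.θ w (pc P (e.symm z)) i e z v

lemma Fs_eq {a : P.I} {i : L.ι} {e : Chart n X} {x : X} (h : At e x) (hi : x ∈ L.U i)
    (ha : InV P a x) (v : Cm n) : Fs s i e (e x) v = Fa P s.θ w a i e (e x) v := by
  unfold Fs
  rw [h.left_inv]
  exact Fa_eq s h hi (pc_mem P x) ha v

lemma Fs_holo {i : L.ι} {e : Chart n X} {x : X} (v : Cm n) (h : At e x) (hi : x ∈ L.U i) :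
    ContDiffAt ℂ ω (fun p : Cm n × Cm n => Fs s i e p.1 p.2) (e x, v) := by
  set a := pc P x with ha
  have hax : InV P a x := pc_mem P x
  -- near `e x` we may use the piece `a`
  have h1 : ∀ᶠ z in 𝓝 (e x), z ∈ e.target ∧ InV P a (e.symm z) ∧ e.symm z ∈ L.U i := by
    have h2 := e.continuousAt_symm h.mem_target
    have h3 : ∀ᶠ z in 𝓝 (e x), InV P a (e.symm z) :=
      h2.eventually ((isOpen_InV P a).mem_nhds (by rw [h.left_inv]; exact hax))
    have h4 : ∀ᶠ z in 𝓝 (e x), e.symm z ∈ L.U i :=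
      h2.eventually ((L.isOpen i).mem_nhds (by rw [h.left_inv]; exact hi))
    filter_upwards [h.nhds_target, h3, h4] with z hz1 hz2 hz3
    exact ⟨hz1, hz2, hz3⟩
  have h5 : (fun p : Cm n × Cm n => Fs s i e p.1 p.2) =ᶠ[𝓝 (e x, v)]
      fun p : Cm n × Cm n => Fa P s.θ w a i e p.1 p.2 := by
    have h6 : ∀ᶠ p : Cm n × Cm n in 𝓝 (e x, v), p.1 ∈ e.target ∧ InV P a (e.symm p.1) ∧
        e.symm p.1 ∈ L.U i :=
      (continuous_fst.continuousAt (x := ((e x, v) : Cm n × Cm n))).eventually h1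
    filter_upwards [h6] with p hp
    have := Fs_eq s (At.of_target h.1 hp.1) hp.2.2 hp.2.1 p.2
    rwa [e.right_inv hp.1] at this
  refine ContDiffAt.congr_of_eventuallyEq ?_ h5
  -- the factor of the frame
  have h7 : ContDiffAt ℂ ω (fun p : Cm n × Cm n => L.g i (P.f a) (e.symm p.1)) (e x, v) :=
    ContDiffAt.comp (e x, v) (g := fun z => L.g i (P.f a) (e.symm z))
      (L.holo i (P.f a) e x h hi hax.mem_U) contDiffAt_fst
  -- the chart of the piece
  have h8 : ContDiffAt ℂ ω (fun z => P.e a (e.symm z)) (e x) := transition h hax.at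
  have h9 : ContDiffAt ℂ ω (fun p : Cm n × Cm n => P.e a (e.symm p.1)) (e x, v) :=
    ContDiffAt.comp (e x, v) (g := fun z => P.e a (e.symm z)) h8 contDiffAt_fst
  have h10 : ContDiffAt ℂ ω (fderiv ℂ fun y => P.e a (e.symm y)) (e x) :=
    h8.fderiv_right (by simp)
  have h11 : ContDiffAt ℂ ω
      (fun p : Cm n × Cm n => fderiv ℂ (fun y => P.e a (e.symm y)) p.1 p.2) (e x, v) :=
    (ContDiffAt.comp (e x, v) (g := fderiv ℂ fun y => P.e a (e.symm y)) h10
      contDiffAt_fst).clm_apply contDiffAt_snd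
  -- the function `θ a`
  have h12 : ContDiffAt ℂ ω (fun q : Cm n × Cm n => s.θ a q.1 q.2)
      (P.e a x, fderiv ℂ (fun y => P.e a (e.symm y)) (e x) v) := by
    refine AnalyticAt.contDiffAt ?_
    refine Vale.Agent.P097.Hol.analyticAt_of_differentiableOn
      (U := ball (P.c a) (3 * P.r a) ×ˢ univ) (isOpen_ball.prod isOpen_univ) (s.holo a) ?_
    exact ⟨hax.2, mem_univ _⟩
  have h13 : ContDiffAt ℂ ω (fun p : Cm n × Cm n => s.θ a (P.e a (e.symm p.1))
      (fderiv ℂ (fun y => P.e a (e.symm y)) p.1 p.2)) (e x, v) := by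
    refine ContDiffAt.comp (e x, v) (g := fun q : Cm n × Cm n => s.θ a q.1 q.2)
      (f := fun p : Cm n × Cm n => (P.e a (e.symm p.1),
        fderiv ℂ (fun y => P.e a (e.symm y)) p.1 p.2)) ?_ (h9.prodMk h11)
    show ContDiffAt ℂ ω _ (P.e a (e.symm (e x)), _)
    rw [h.left_inv]
    exact h12
  exact (h7.pow w).mul h13

/-- the section over `X` -/
def mkSym : SymSec L d w where
  f := Fs s
  holo i e x v h hi := Fs_holo s v h hi
  homog i e x h hi t v := by
    rw [Fs_eq s h hi (pc_mem P x), Fs_eq s h hi (pc_mem P x)]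
    unfold Fa
    rw [h.left_inv, map_smul]
    have := s.homog (pc P x) (P.e (pc P x) x) (pc_mem P x).2 t
      (fderiv ℂ (fun y => P.e (pc P x) (e.symm y)) (e x) v)
    rw [this]
    ring
  change i e e' x h h' hi v := by
    rw [Fs_eq s h hi (pc_mem P x), Fs_eq s h' hi (pc_mem P x)]
    unfold Fa
    rw [h.left_inv, h'.left_inv, fderiv_chain h h' (pc_mem P x).at v]
  glue i j e x h hi hj v := by
    rw [Fs_eq s h hi (pc_mem P x), Fs_eq s h hj (pc_mem P x)]
    unfold Fa
    rw [h.left_inv, ← mul_assoc, ← mul_pow, L.cocycle _ _ _ x hi hj (pc_mem P x).mem_U]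

lemma mkSym_nonzero (hs : s.Nonzero) : (mkSym s).Nonzero := by
  obtain ⟨a, z, hz, v, hv⟩ := hs
  have hz4 : z ∈ ball (P.c a) (4 * P.r a) :=
    ball_subset_ball (by linarith [P.r_pos a]) (show z ∈ ball (P.c a) (3 * P.r a) from hz)
  have hat : At (P.e a) ((P.e a).symm z) := P.at' hz4
  have hr : P.e a ((P.e a).symm z) = z := (P.e a).right_inv (P.target hz4)
  have hin : InV P a ((P.e a).symm z) := ⟨hat.2, by rw [hr]; exact hz⟩
  refine ⟨P.f a, P.e a, (P.e a).symm z, v, hat, hin.mem_U, ?_⟩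
  show Fs s (P.f a) (P.e a) (P.e a ((P.e a).symm z)) v ≠ 0
  rw [Fs_eq s hat hin.mem_U hin]
  unfold Fa
  rw [hat.left_inv, fderiv_self hat, hr]
  exact mul_ne_zero (pow_ne_zero _ (L.ne_zero _ _ _ hin.mem_U hin.mem_U)) hv

end

/-- **A6** -/
theorem a6 : A6Stmt := by
  intro n X _ _ _ _ _ L P Γ _ K d w s hs
  exact ⟨mkSym s, mkSym_nonzero s hs⟩

end Vale.Agent.P284.H633
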